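import Vale.Agent.P321.Final
import Vale.Agent.P321U.Unif

namespace Vale.Agent.Results.P321.Quasi

open Vale.Agent.P321

theorem result : ∃ c C : ℝ, 0 < c ∧ ∀ q : ℝ, 0 < q → q < 1 →
    (∀ n : ℕ, 3 ≤ n → (∃ m, Reconstructs q n m) ∧
      (sampleComplexity q n : ℝ) ≤ Real.exp (Real.log n ^ C / (1 - q))) ∧
    (∀ᶠ n : ℕ in Filter.atTop,
      (n : ℝ) ^ (c * Real.log (Real.log n)) ≤ (sampleComplexity q n : ℝ) ∧
      (sampleComplexity q n : ℝ) ≤ Real.exp (Real.log n ^ (C + 1))) ∧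
    ¬ ∃ K d : ℝ, ∀ n : ℕ, 1 ≤ n → (sampleComplexity q n : ℝ) ≤ K * (n : ℝ) ^ d := by
  obtain ⟨C, hC⟩ := Vale.Agent.P321U.upper_unif
  have h0 : Filter.Tendsto (fun n : ℕ => Real.log n) Filter.atTop Filter.atTop :=
    Real.tendsto_log_atTop.comp tendsto_natCast_atTop_atTop
  refine ⟨1 / 30000, C, by norm_num, fun q hq hq1 => ⟨hC q hq.le hq1, (superpoly hq hq1).and ?_, ?_⟩⟩
  · filter_upwards [Filter.eventually_ge_atTop 3, h0.eventually_ge_atTop (1 / (1 - q))] with n h1 h2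
    have hp : 0 < 1 - q := sub_pos.2 hq1
    have h3 : 0 < Real.log n := lt_of_lt_of_le (by positivity) h2
    refine (hC q hq.le hq1 n h1).2.trans (Real.exp_le_exp.2 ?_)
    rw [Real.rpow_add_one h3.ne', div_eq_mul_one_div]
    exact mul_le_mul_of_nonneg_left h2 (Real.rpow_nonneg h3.le _)
  rintro ⟨K, d, h⟩
  obtain ⟨n, h2, h3, h4, h5⟩ := ((superpoly hq hq1).and
    (((Real.tendsto_log_atTop.comp h0).eventually_ge_atTop (30000 * (d + 1))).and
      ((Filter.eventually_ge_atTop 1).and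
        (tendsto_natCast_atTop_atTop.eventually_gt_atTop K)))).exists
  have hn : (1 : ℝ) ≤ n := by exact_mod_cast h4
  have h3' : 30000 * (d + 1) ≤ Real.log (Real.log n) := h3
  have h6 : (n : ℝ) ^ (d + 1) ≤ (n : ℝ) ^ (1 / 30000 * Real.log (Real.log n)) :=
    Real.rpow_le_rpow_of_exponent_le hn (by linarith)
  rw [Real.rpow_add_one (by linarith)] at h6
  have h7 : 0 < (n : ℝ) ^ d := Real.rpow_pos_of_pos (by linarith) d
  have h8 := h n h4
  nlinarith

end Vale.Agent.Results.P321.Quasi
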