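import Vale.Agent.Results.P321.Superpoly
import Vale.Agent.P321U.Up

namespace Vale.Agent.Results.P321.Quasipoly

open Vale.Agent.P321

theorem result : ∃ c C : ℝ, 0 < c ∧ ∀ q : ℝ, 0 < q → q < 1 →
    (∀ᶠ n : ℕ in Filter.atTop, (∃ m, Reconstructs q n m) ∧
      (n : ℝ) ^ (c * Real.log (Real.log n)) ≤ (sampleComplexity q n : ℝ) ∧
      (sampleComplexity q n : ℝ) ≤ Real.exp (Real.log n ^ C)) ∧
    ¬ ∃ A d : ℝ, ∀ n : ℕ, 1 ≤ n → (sampleComplexity q n : ℝ) ≤ A * (n : ℝ) ^ d := by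
  obtain ⟨c, hc, h1⟩ := Superpoly.result
  obtain ⟨C, h2⟩ := P321U.upper
  exact ⟨c, C, hc, fun q hq hq1 => ⟨((h1 q hq hq1).1.and (h2 q hq hq1)).mono
    fun n h => ⟨h.2.1, h.1, h.2.2⟩, (h1 q hq hq1).2⟩⟩

end Vale.Agent.Results.P321.Quasipoly
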