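import Vale.Agent.P321.Final

namespace Vale.Agent.Results.P321.Superpoly

open Vale.Agent.P321

theorem result : ∃ c : ℝ, 0 < c ∧ ∀ q : ℝ, 0 < q → q < 1 →
    (∀ᶠ n : ℕ in Filter.atTop,
      (n : ℝ) ^ (c * Real.log (Real.log n)) ≤ (sampleComplexity q n : ℝ)) ∧
    ¬ ∃ C d : ℝ, ∀ n : ℕ, 1 ≤ n → (sampleComplexity q n : ℝ) ≤ C * (n : ℝ) ^ d := by
  refine ⟨1 / 30000, by norm_num, fun q hq hq1 => ⟨superpoly hq hq1, ?_⟩⟩
  rintro ⟨C, d, h⟩
  have h1 : Filter.Tendsto (fun n : ℕ => Real.log (Real.log n)) Filter.atTop Filter.atTop :=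
    Real.tendsto_log_atTop.comp (Real.tendsto_log_atTop.comp tendsto_natCast_atTop_atTop)
  obtain ⟨n, h2, h3, h4, h5⟩ := ((superpoly hq hq1).and
    ((h1.eventually_ge_atTop (30000 * (d + 1))).and ((Filter.eventually_ge_atTop 1).and
      (tendsto_natCast_atTop_atTop.eventually_gt_atTop C)))).exists
  have hn : (1 : ℝ) ≤ n := by exact_mod_cast h4
  have h6 : (n : ℝ) ^ (d + 1) ≤ (n : ℝ) ^ (1 / 30000 * Real.log (Real.log n)) :=
    Real.rpow_le_rpow_of_exponent_le hn (by linarith)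
  rw [Real.rpow_add_one (by linarith)] at h6
  have h7 : 0 < (n : ℝ) ^ d := Real.rpow_pos_of_pos (by linarith) d
  have h8 := h n h4
  nlinarith

end Vale.Agent.Results.P321.Superpoly
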